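import Vale.Agent.P015.H416.SpecEnt

/-!
# P015 [MIDSEL]: from the energy inequality of one window to the soft window

For one prime: Gibbs law `gq`, exponent `gb`, `sup`, energy and relative masses of the blocks
(`rel_sum_le`).  Then the choice of a subrange of levels (`midsel`).
-/

namespace Vale.Agent.P015.H723

open Finset Vale.Agent.P015.H222 Vale.Agent.P015.H416

/-! ### One prime -/

/-- Gibbs law of the window -/
noncomputable def gq (r : ℕ → ℤ) (g : ℕ → ℤ × ℤ) (l Nb J p : ℕ) (c : ZMod p) : ℝ :=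
  Real.exp (-(J * mu r g l Nb p c)) / Zm r g l Nb J p

/-- exponent of the Gibbs law -/
noncomputable def gb (r : ℕ → ℤ) (g : ℕ → ℤ × ℤ) (l Nb J p : ℕ) : ℝ :=
  1 - Real.log (Zm r g l Nb J p) / Real.log p

variable {r : ℕ → ℤ} {g : ℕ → ℤ × ℤ} {l Nb J p : ℕ}

theorem mu_nonneg (c : ZMod p) : 0 ≤ mu r g l Nb p c := by
  unfold mu
  positivity

theorem Zm_pos (hp : 0 < p) : 0 < Zm r g l Nb J p := by
  unfold Zm
  exact Finset.sum_pos (fun _ _ => Real.exp_pos _) ⟨0, mem_range.2 hp⟩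

theorem Zm_le : Zm r g l Nb J p ≤ p := by
  unfold Zm
  calc ∑ c ∈ range p, Real.exp (-(J * mu r g l Nb p (c : ZMod p))) ≤ ∑ c ∈ range p, (1 : ℝ) := by
        refine Finset.sum_le_sum fun c _ => ?_
        rw [Real.exp_le_one_iff]
        have := mul_nonneg (Nat.cast_nonneg (α := ℝ) J) (mu_nonneg (r := r) (g := g) (l := l) (Nb := Nb) (c : ZMod p))
        linarith
    _ = p := by simp

theorem one_le_Zm (hp : 0 < p)
    (h : ∃ a : ZMod p, ∀ n, ((lf (r p) (g n) : ℤ) : ZMod p) ≠ a) : 1 ≤ Zm r g l Nb J p := by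
  obtain ⟨a, ha⟩ := h
  have : NeZero p := ⟨hp.ne'⟩
  have h0 : mu r g l Nb p a = 0 := by
    unfold mu
    rw [Finset.card_eq_zero.2 (Finset.filter_eq_empty_iff.2 fun j _ => ?_)]
    · simp
    · rintro ⟨i, _, hi⟩
      exact ha _ hi
  have h1 : Real.exp (-(J * mu r g l Nb p (a.val : ZMod p))) ≤ Zm r g l Nb J p :=
    Finset.single_le_sum (f := fun c : ℕ => Real.exp (-(J * mu r g l Nb p (c : ZMod p))))
      (fun _ _ => (Real.exp_pos _).le) (mem_range.2 (ZMod.val_lt a))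
  rw [ZMod.natCast_zmod_val, h0, mul_zero, neg_zero, Real.exp_zero] at h1
  exact h1

theorem gq_nonneg (hp : 0 < p) (c : ZMod p) : 0 ≤ gq r g l Nb J p c :=
  div_nonneg (Real.exp_pos _).le (Zm_pos hp).le

theorem gq_pos (hp : 0 < p) (c : ZMod p) : 0 < gq r g l Nb J p c :=
  div_pos (Real.exp_pos _) (Zm_pos hp)

theorem sum_gq (hp : 0 < p) : ∑ c ∈ range p, gq r g l Nb J p (c : ZMod p) = 1 := by
  unfold gq
  rw [← Finset.sum_div]
  exact div_self (Zm_pos (r := r) (g := g) (l := l) (Nb := Nb) (J := J) hp).ne'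

theorem gb_mul_log (hp : 1 < p) :
    gb r g l Nb J p * Real.log p = Real.log p - Real.log (Zm r g l Nb J p) := by
  have h : Real.log p ≠ 0 := (Real.log_pos (by exact_mod_cast hp)).ne'
  unfold gb
  field_simp

theorem gb_nonneg (hp : 1 < p) : 0 ≤ gb r g l Nb J p := by
  have h : 0 < Real.log p := Real.log_pos (by exact_mod_cast hp)
  have h1 : Real.log (Zm r g l Nb J p) ≤ Real.log p :=
    Real.log_le_log (Zm_pos (by omega)) Zm_le
  unfold gb
  rw [sub_nonneg, div_le_one h]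
  exact h1

theorem gb_le_one (hp : 1 < p) (h1 : 1 ≤ Zm r g l Nb J p) : gb r g l Nb J p ≤ 1 := by
  have h : 0 < Real.log p := Real.log_pos (by exact_mod_cast hp)
  have h2 := div_nonneg (Real.log_nonneg h1) h.le
  unfold gb
  linarith

theorem sup_gq (hp : 1 < p) (c : ZMod p) :
    (p : ℝ) * gq r g l Nb J p c ≤ (p : ℝ) ^ gb r g l Nb J p := by
  have hp0 : (0 : ℝ) < p := by exact_mod_cast (by omega : 0 < p)
  have hZ : 0 < Zm r g l Nb J p := Zm_pos (by omega)
  rw [Real.rpow_def_of_pos hp0, mul_comm (Real.log (p : ℝ)), gb_mul_log hp, Real.exp_sub,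
    Real.exp_log hp0, Real.exp_log hZ, gq, ← mul_div_assoc]
  refine div_le_div_of_nonneg_right ?_ hZ.le
  have h1 : Real.exp (-(J * mu r g l Nb p c)) ≤ 1 := by
    rw [Real.exp_le_one_iff]
    have := mul_nonneg (Nat.cast_nonneg (α := ℝ) J) (mu_nonneg (r := r) (g := g) (l := l) (Nb := Nb) c)
    linarith
  calc (p : ℝ) * Real.exp (-(J * mu r g l Nb p c)) ≤ p * 1 := mul_le_mul_of_nonneg_left h1 hp0.le
    _ = p := mul_one _

/-- Gibbs: `J ⟨q, μ⟩ ≤ log p - log Z` -/
theorem energy (hp : 0 < p) :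
    J * ∑ c ∈ range p, gq r g l Nb J p (c : ZMod p) * mu r g l Nb p (c : ZMod p) ≤
      Real.log p - Real.log (Zm r g l Nb J p) := by
  have hZ : 0 < Zm r g l Nb J p := Zm_pos hp
  have hn : (0 : ℝ) < p := by exact_mod_cast hp
  have key : ∀ c ∈ range p, gq r g l Nb J p (c : ZMod p) * (J * mu r g l Nb p (c : ZMod p)) ≤
      gq r g l Nb J p (c : ZMod p) * (Real.log p - Real.log (Zm r g l Nb J p)) +
        (1 / p - gq r g l Nb J p (c : ZMod p)) := by
    intro c _
    have hq : 0 < gq r g l Nb J p (c : ZMod p) := gq_pos hp _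
    have h1 : Real.log (gq r g l Nb J p (c : ZMod p)) =
        -(J * mu r g l Nb p (c : ZMod p)) - Real.log (Zm r g l Nb J p) := by
      rw [gq, Real.log_div (Real.exp_pos _).ne' hZ.ne', Real.log_exp]
    have h2 := Real.log_le_sub_one_of_pos (x := 1 / (p * gq r g l Nb J p (c : ZMod p)))
      (by positivity)
    have h3 : Real.log (1 / (p * gq r g l Nb J p (c : ZMod p))) =
        -Real.log p - Real.log (gq r g l Nb J p (c : ZMod p)) := by
      rw [Real.log_div one_ne_zero (by positivity), Real.log_one, Real.log_mul hn.ne' hq.ne']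
      ring
    rw [h3, h1] at h2
    have h4 : J * mu r g l Nb p (c : ZMod p) ≤ Real.log p - Real.log (Zm r g l Nb J p) +
        (1 / (p * gq r g l Nb J p (c : ZMod p)) - 1) := by linarith
    calc gq r g l Nb J p (c : ZMod p) * (J * mu r g l Nb p (c : ZMod p)) ≤
          gq r g l Nb J p (c : ZMod p) * (Real.log p - Real.log (Zm r g l Nb J p) +
            (1 / (p * gq r g l Nb J p (c : ZMod p)) - 1)) :=
          mul_le_mul_of_nonneg_left h4 hq.le
      _ = _ := by field_simp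
  have h := Finset.sum_le_sum key
  rw [Finset.sum_add_distrib, ← Finset.sum_mul, sum_gq hp, Finset.sum_sub_distrib, sum_gq hp,
    Finset.sum_const, card_range, nsmul_eq_mul, mul_one_div_cancel hn.ne', sub_self, add_zero,
    one_mul] at h
  rw [Finset.mul_sum]
  refine le_trans (le_of_eq (Finset.sum_congr rfl fun c _ => by ring)) h

/-- sums over `range p` are sums over the classes -/
theorem sum_range_zmod [NeZero p] (f : ZMod p → ℝ) :
    ∑ c ∈ range p, f (c : ZMod p) = ∑ c : ZMod p, f c := by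
  refine Finset.sum_bij (fun c _ => (c : ZMod p)) (fun c _ => mem_univ _) ?_ ?_ (fun c _ => rfl)
  · intro a ha b hb hab
    have := (ZMod.natCast_eq_natCast_iff' a b p).1 hab
    rwa [Nat.mod_eq_of_lt (mem_range.1 ha), Nat.mod_eq_of_lt (mem_range.1 hb)] at this
  · intro c _
    exact ⟨c.val, mem_range.2 (ZMod.val_lt c), ZMod.natCast_zmod_val c⟩

/-- sum of the relative masses of the blocks, if every block is injective mod `p` -/
theorem sum_rel_le (hp : 0 < p) (hNb : 0 < Nb) (q : ∀ p : ℕ, ZMod p → ℝ)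
    (hq : ∀ c, 0 ≤ q p c)
    (hinj : ∀ j < Nb, ∀ i < l, ∀ i' < l, ((lf (r p) (g (j * l + i)) : ℤ) : ZMod p) =
      ((lf (r p) (g (j * l + i')) : ℤ) : ZMod p) → i = i') :
    ∑ j ∈ range Nb, rel r q g l p j ≤
      (p : ℝ) / l * (Nb * ∑ c ∈ range p, q p (c : ZMod p) * mu r g l Nb p (c : ZMod p)) := by
  classical
  have : NeZero p := ⟨hp.ne'⟩
  have hNb' : (Nb : ℝ) ≠ 0 := by positivity
  rw [sum_range_zmod (fun c => q p c * mu r g l Nb p c)]
  have h1 : ∑ j ∈ range Nb, rel r q g l p j =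
      (p : ℝ) / l * ∑ j ∈ range Nb, ∑ i ∈ range l, qa r q p (g (j * l + i)) := by
    rw [Finset.mul_sum]
    rfl
  rw [h1]
  refine mul_le_mul_of_nonneg_left ?_ (by positivity)
  have h2 : (Nb : ℝ) * ∑ c : ZMod p, q p c * mu r g l Nb p c =
      ∑ j ∈ range Nb, ∑ c : ZMod p,
        if (∃ i ∈ range l, ((lf (r p) (g (j * l + i)) : ℤ) : ZMod p) = c) then q p c else 0 := by
    rw [Finset.sum_comm, Finset.mul_sum]
    refine Finset.sum_congr rfl fun c _ => ?_
    rw [← Finset.sum_filter, Finset.sum_const, nsmul_eq_mul, mu]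
    field_simp
  rw [h2]
  refine Finset.sum_le_sum fun j hj => ?_
  have h4 : ∑ i ∈ range l, qa r q p (g (j * l + i)) =
      ∑ c ∈ (range l).image (fun i => ((lf (r p) (g (j * l + i)) : ℤ) : ZMod p)), q p c := by
    rw [Finset.sum_image]
    · rfl
    · intro i hi i' hi' h
      exact hinj j (mem_range.1 hj) i (mem_range.1 hi) i' (mem_range.1 hi') h
  rw [h4, ← Finset.sum_filter]
  refine Finset.sum_le_sum_of_subset_of_nonneg ?_ (fun c _ _ => hq c)
  intro c hc
  rw [mem_image] at hc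
  exact mem_filter.2 ⟨mem_univ _, hc⟩

/-- relative masses of the blocks: their average is at most the exponent -/
theorem rel_sum_le (hp : 1 < p) (hNb : 0 < Nb) (hJ : 1 ≤ J) (hl : 1 ≤ l)
    (hJl : (p : ℝ) * Real.log p ≤ J * l) (q : ∀ p : ℕ, ZMod p → ℝ)
    (hq : q p = gq r g l Nb J p)
    (hinj : ∀ j < Nb, ∀ i < l, ∀ i' < l, ((lf (r p) (g (j * l + i)) : ℤ) : ZMod p) =
      ((lf (r p) (g (j * l + i')) : ℤ) : ZMod p) → i = i') :
    ∑ j ∈ range Nb, rel r q g l p j ≤ Nb * gb r g l Nb J p := by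
  have hp0 : 0 < p := by omega
  have h1 := sum_rel_le (r := r) (g := g) (l := l) (Nb := Nb) hp0 hNb q
    (fun c => by rw [hq]; exact gq_nonneg hp0 c) hinj
  refine h1.trans ?_
  rw [hq]
  have h2 := energy (r := r) (g := g) (l := l) (Nb := Nb) (J := J) hp0
  rw [← gb_mul_log hp] at h2
  have hJ0 : (0 : ℝ) < J := by exact_mod_cast (by omega : 0 < J)
  have hl0 : (0 : ℝ) < l := by exact_mod_cast (by omega : 0 < l)
  have hN0 : (0 : ℝ) < Nb := by exact_mod_cast hNb
  have hb : 0 ≤ gb r g l Nb J p := gb_nonneg hp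
  set E := ∑ c ∈ range p, gq r g l Nb J p (c : ZMod p) * mu r g l Nb p (c : ZMod p) with hE
  have h3 : (p : ℝ) * E * J ≤ (J * l) * gb r g l Nb J p := by
    calc (p : ℝ) * E * J = p * (J * E) := by ring
      _ ≤ p * (gb r g l Nb J p * Real.log p) := mul_le_mul_of_nonneg_left h2 (by positivity)
      _ = (p * Real.log p) * gb r g l Nb J p := by ring
      _ ≤ (J * l) * gb r g l Nb J p := mul_le_mul_of_nonneg_right hJl hb
  have h4 : (p : ℝ) * E ≤ l * gb r g l Nb J p := by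
    have : (p : ℝ) * E * J ≤ (l * gb r g l Nb J p) * J := by linarith
    exact le_of_mul_le_mul_right this hJ0
  calc (p : ℝ) / l * (Nb * E) = Nb * ((p * E) / l) := by ring
    _ ≤ Nb * gb r g l Nb J p := by
      refine mul_le_mul_of_nonneg_left ?_ hN0.le
      rw [div_le_iff₀ hl0]
      linarith

/-! ### Blocks are injective modulo `p` -/

theorem path_le {D : ℕ} (hg : IPath D g) (n k : ℕ) :
    |(g (n + k)).1 - (g n).1| ≤ D * k ∧ |(g (n + k)).2 - (g n).2| ≤ D * k := by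
  induction k with
  | zero => simp
  | succ k ih =>
    have h := hg.step (n + k)
    have e : n + (k + 1) = n + k + 1 := by ring
    rw [e]
    push_cast
    constructor
    · calc |(g (n + k + 1)).1 - (g n).1| = |((g (n + k + 1)).1 - (g (n + k)).1) +
            ((g (n + k)).1 - (g n).1)| := by ring_nf
        _ ≤ |(g (n + k + 1)).1 - (g (n + k)).1| + |(g (n + k)).1 - (g n).1| := abs_add_le _ _
        _ ≤ D + D * k := add_le_add h.1 ih.1
        _ = D * (k + 1) := by ring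
    · calc |(g (n + k + 1)).2 - (g n).2| = |((g (n + k + 1)).2 - (g (n + k)).2) +
            ((g (n + k)).2 - (g n).2)| := by ring_nf
        _ ≤ |(g (n + k + 1)).2 - (g (n + k)).2| + |(g (n + k)).2 - (g n).2| := abs_add_le _ _
        _ ≤ D + D * k := add_le_add h.2 ih.2
        _ = D * (k + 1) := by ring

theorem eq_zero_of_dvd {s : ℤ} {v : ℤ × ℤ} {X : ℤ} (hs : (p : ℤ) ∣ s ^ 2 + 1)
    (hv : (p : ℤ) ∣ v.1 + s * v.2) (h1 : |v.1| ≤ X) (h2 : |v.2| ≤ X) (hX : 2 * X ^ 2 < p) :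
    v = 0 := by
  have h3 : (p : ℤ) ∣ v.1 ^ 2 + v.2 ^ 2 := by
    have : v.1 ^ 2 + v.2 ^ 2 = (v.1 + s * v.2) * (v.1 - s * v.2) + (s ^ 2 + 1) * v.2 ^ 2 := by ring
    rw [this]
    exact dvd_add (Dvd.dvd.mul_right hv _) (Dvd.dvd.mul_right hs _)
  have h4 : v.1 ^ 2 ≤ X ^ 2 := sq_le_sq' (by linarith [neg_abs_le v.1]) (by linarith [le_abs_self v.1])
  have h5 : v.2 ^ 2 ≤ X ^ 2 := sq_le_sq' (by linarith [neg_abs_le v.2]) (by linarith [le_abs_self v.2])
  have h6 : v.1 ^ 2 + v.2 ^ 2 = 0 :=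
    Int.eq_zero_of_dvd_of_nonneg_of_lt (by positivity) (by linarith) h3
  have h7 : v.1 ^ 2 = 0 := by nlinarith [sq_nonneg v.1, sq_nonneg v.2]
  have h8 : v.2 ^ 2 = 0 := by nlinarith [sq_nonneg v.1, sq_nonneg v.2]
  exact Prod.ext (pow_eq_zero_iff (two_ne_zero) |>.1 h7) (pow_eq_zero_iff (two_ne_zero) |>.1 h8)

theorem block_inj {D : ℕ} (hg : IPath D g) (hr : (p : ℤ) ∣ r p ^ 2 + 1)
    (hD : 2 * (D * l) ^ 2 < p) (s : ℕ) : ∀ i < l, ∀ i' < l,
    ((lf (r p) (g (s + i)) : ℤ) : ZMod p) = ((lf (r p) (g (s + i')) : ℤ) : ZMod p) → i = i' := by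
  -- it is enough to treat `i' ≤ i`
  have key : ∀ i < l, ∀ i' ≤ i,
      ((lf (r p) (g (s + i)) : ℤ) : ZMod p) = ((lf (r p) (g (s + i')) : ℤ) : ZMod p) → i = i' := by
    intro i hi i' hi' h
    have h1 := path_le hg (s + i') (i - i')
    have e : s + i' + (i - i') = s + i := by omega
    rw [e] at h1
    have hk : (D : ℤ) * ((i - i' : ℕ) : ℤ) ≤ ((D * l : ℕ) : ℤ) := by
      push_cast
      refine mul_le_mul_of_nonneg_left ?_ (by positivity)
      omega
    have h2 : (p : ℤ) ∣ (g (s + i) - g (s + i')).1 + r p * (g (s + i) - g (s + i')).2 := by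
      have h3 := (ZMod.intCast_eq_intCast_iff_dvd_sub _ _ _).1 h.symm
      have h4 : lf (r p) (g (s + i)) - lf (r p) (g (s + i')) =
          (g (s + i) - g (s + i')).1 + r p * (g (s + i) - g (s + i')).2 := by
        simp only [lf, Prod.fst_sub, Prod.snd_sub]
        ring
      rwa [h4] at h3
    have h5 : g (s + i) - g (s + i') = 0 :=
      eq_zero_of_dvd hr h2 (h1.1.trans hk) (h1.2.trans hk) (by exact_mod_cast hD)
    have h6 := hg.inj (sub_eq_zero.1 h5)
    omega
  intro i hi i' hi' h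
  rcases le_total i' i with h1 | h1
  · exact key i hi i' h1 h
  · exact (key i' hi' i h1 h.symm).symm

/-! ### Choice of a subrange -/

theorem sum_sub (f : ℕ → ℝ) {a B : ℕ} (hB : 1 ≤ B) (m : ℕ) :
    ∑ i ∈ range m, ∑ k ∈ Ico (a * B ^ i) (a * B ^ (i + 1)), f k =
      ∑ k ∈ Ico a (a * B ^ m), f k := by
  induction m with
  | zero => simp
  | succ m ih =>
    rw [Finset.sum_range_succ, ih]
    refine Finset.sum_Ico_consecutive f ?_ ?_
    · exact Nat.le_mul_of_pos_right _ (by positivity)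
    · exact Nat.mul_le_mul_left _ (Nat.pow_le_pow_right hB (Nat.le_succ m))

theorem exists_sub (f : ℕ → ℝ) {a B m : ℕ} {ε : ℝ} (hB : 1 ≤ B) (hm : 1 ≤ m)
    (h : ∑ k ∈ Ico a (a * B ^ m), f k ≤ ε * m) :
    ∃ i < m, ∑ k ∈ Ico (a * B ^ i) (B * (a * B ^ i)), f k ≤ ε := by
  by_contra hcon
  push Not at hcon
  have h1 : ∑ i ∈ range m, ε < ∑ i ∈ range m, ∑ k ∈ Ico (a * B ^ i) (a * B ^ (i + 1)), f k := by
    refine Finset.sum_lt_sum_of_nonempty ⟨0, mem_range.2 (by omega)⟩ fun i hi => ?_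
    have e : a * B ^ (i + 1) = B * (a * B ^ i) := by ring
    rw [e]
    exact hcon i (mem_range.1 hi)
  rw [sum_sub f hB m, Finset.sum_const, card_range, nsmul_eq_mul] at h1
  linarith

/-! ### The soft window -/

/-- the laws of the window -/
noncomputable def qg (r : ℕ → ℤ) (g : ℕ → ℤ × ℤ) (l Nb A : ℕ) (J : ℕ → ℕ) (p : ℕ) (c : ZMod p) :
    ℝ := gq r g l Nb (J (Nat.log A (p - 1))) p c

/-- the exponents of the window -/
noncomputable def bg (r : ℕ → ℤ) (g : ℕ → ℤ × ℤ) (l Nb A : ℕ) (J : ℕ → ℕ) (p : ℕ) : ℝ :=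
  gb r g l Nb (J (Nat.log A (p - 1))) p

theorem level_eq {A k p : ℕ} (h1 : A ^ k < p) (h2 : p ≤ A ^ (k + 1)) :
    Nat.log A (p - 1) = k := by
  refine Nat.log_eq_of_pow_le_of_lt_pow (by omega) ?_
  have : 0 < p := by omega
  omega

theorem midsel {D A B m a l Nb : ℕ} {ρ ε CJ R : ℝ} {r : ℕ → ℤ} {g : ℕ → ℤ × ℤ}
    {P : ℕ → Finset ℕ} {J : ℕ → ℕ} (hg : IPath D g) (hA : 2 ≤ A) (hB : 2 ≤ B) (ha : 1 ≤ a)
    (hm : 1 ≤ m) (hl : 1 ≤ l) (hl4 : l ≤ a ^ 4) (hNb : 1 ≤ Nb)
    (hlong : A ^ (3 * (a * B ^ m)) ≤ Nb * l) (hD : 2 * (D * l) ^ 2 < A ^ a)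
    (hrts : ∀ k ∈ Ico a (a * B ^ m), Rts r (P k))
    (hrng : ∀ k ∈ Ico a (a * B ^ m), ∀ p ∈ P k, A ^ k < p ∧ p ≤ A ^ (k + 1))
    (hmany : ∀ k ∈ Ico a (a * B ^ m), ρ * (A : ℝ) ^ k ≤ k * (P k).card)
    (hmiss : ∀ k ∈ Ico a (a * B ^ m), ∀ p ∈ P k,
      ∃ c : ZMod p, ∀ n, ((lf (r p) (g n) : ℤ) : ZMod p) ≠ c)
    (hJ : ∀ k ∈ Ico a (a * B ^ m), 1 ≤ J k)
    (hJ1 : ∀ k ∈ Ico a (a * B ^ m),
      (A : ℝ) ^ (k + 1) * ((k + 1) * Real.log A) ≤ J k * l)
    (hJ2 : ∀ k ∈ Ico a (a * B ^ m), (J k : ℝ) * l ≤ CJ * ((A : ℝ) ^ k * k))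
    (hρ : 0 < ρ) (hCJ : 0 < CJ) (hR : CJ * R ≤ ρ * Real.log A * (ε * m))
    (hsum : ∑ k ∈ Ico a (a * B ^ m), 1 / ((J k : ℝ) * l) *
      ∑ p ∈ P k, (Real.log p - Real.log (Zm r g l Nb (J k) p)) ≤ R) :
    ∃ i < m, SoftWin A B ρ ε r (a * B ^ i) l Nb g P (qg r g l Nb A J) (bg r g l Nb A J) := by
  have hlogA : 0 < Real.log A := Real.log_pos (by exact_mod_cast (by omega : 1 < A))
  have hl0 : (0 : ℝ) < l := by exact_mod_cast (by omega : 0 < l)
  have hB1 : 1 ≤ B := by omega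
  have hNb0 : 0 < Nb := by omega
  -- facts about the primes of the levels
  have hp1 : ∀ k ∈ Ico a (a * B ^ m), ∀ p ∈ P k, 1 < p := fun k hk p hp => (hrts k hk p hp).1.one_lt
  have hlev : ∀ k ∈ Ico a (a * B ^ m), ∀ p ∈ P k, Nat.log A (p - 1) = k := fun k hk p hp =>
    level_eq (hrng k hk p hp).1 (hrng k hk p hp).2
  have hq : ∀ k ∈ Ico a (a * B ^ m), ∀ p ∈ P k, qg r g l Nb A J p = gq r g l Nb (J k) p := by
    intro k hk p hp
    funext c
    simp only [qg, hlev k hk p hp]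
  have hb : ∀ k ∈ Ico a (a * B ^ m), ∀ p ∈ P k, bg r g l Nb A J p = gb r g l Nb (J k) p := by
    intro k hk p hp
    simp only [bg, hlev k hk p hp]
  have hk0 : ∀ k ∈ Ico a (a * B ^ m), 0 < (k : ℝ) := by
    intro k hk
    have := (mem_Ico.1 hk).1
    exact_mod_cast (by omega : 0 < k)
  have hcard : ∀ k ∈ Ico a (a * B ^ m), 0 < ((P k).card : ℝ) := by
    intro k hk
    have h1 := hmany k hk
    have h2 : 0 < ρ * (A : ℝ) ^ k := by positivity
    by_contra h3
    have h4 : ((P k).card : ℝ) = 0 := le_antisymm (not_lt.1 h3) (by positivity)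
    rw [h4, mul_zero] at h1
    linarith
  -- average of the exponents
  have hav : ∀ k ∈ Ico a (a * B ^ m), 1 / (k : ℝ) * av (P k) (bg r g l Nb A J) ≤
      CJ / (ρ * Real.log A) * (1 / ((J k : ℝ) * l) *
        ∑ p ∈ P k, (Real.log p - Real.log (Zm r g l Nb (J k) p))) := by
    intro k hk
    have hk1 := hk0 k hk
    have hc := hcard k hk
    have hJ0 : (0 : ℝ) < J k := by exact_mod_cast (by have := hJ k hk; omega : 0 < J k)
    set S : ℝ := ∑ p ∈ P k, bg r g l Nb A J p with hS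
    have hS0 : 0 ≤ S := by
      refine Finset.sum_nonneg fun p hp => ?_
      rw [hb k hk p hp]
      exact gb_nonneg (hp1 k hk p hp)
    have h1 : (k : ℝ) * Real.log A * S ≤
        ∑ p ∈ P k, (Real.log p - Real.log (Zm r g l Nb (J k) p)) := by
      rw [hS, Finset.mul_sum]
      refine Finset.sum_le_sum fun p hp => ?_
      rw [← gb_mul_log (hp1 k hk p hp), hb k hk p hp, mul_comm (gb r g l Nb (J k) p)]
      refine mul_le_mul_of_nonneg_right ?_ (gb_nonneg (hp1 k hk p hp))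
      rw [← Real.log_pow]
      refine Real.log_le_log (by positivity) ?_
      exact_mod_cast (hrng k hk p hp).1.le
    have h2 : 1 / (k : ℝ) * av (P k) (bg r g l Nb A J) ≤ S / (ρ * (A : ℝ) ^ k) := by
      have e : 1 / (k : ℝ) * av (P k) (bg r g l Nb A J) = S / (k * (P k).card) := by
        rw [av, ← hS]
        field_simp
      rw [e]
      exact div_le_div_of_nonneg_left hS0 (by positivity) (hmany k hk)
    have h3 : S / (ρ * (A : ℝ) ^ k) ≤
        CJ / (ρ * Real.log A) * (1 / ((J k : ℝ) * l) * ((k : ℝ) * Real.log A * S)) := by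
      have e : CJ / (ρ * Real.log A) * (1 / ((J k : ℝ) * l) * ((k : ℝ) * Real.log A * S)) =
          (CJ * k * S) / (ρ * (J k * l)) := by
        field_simp
      rw [e, div_le_div_iff₀ (by positivity) (by positivity)]
      have h4 := mul_le_mul_of_nonneg_left (hJ2 k hk) (mul_nonneg hS0 hρ.le)
      nlinarith [h4]
    refine (h2.trans h3).trans ?_
    refine mul_le_mul_of_nonneg_left ?_ (by positivity)
    exact mul_le_mul_of_nonneg_left h1 (by positivity)
  have htot : ∑ k ∈ Ico a (a * B ^ m), 1 / (k : ℝ) * av (P k) (bg r g l Nb A J) ≤ ε * m := by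
    refine (Finset.sum_le_sum hav).trans ?_
    rw [← Finset.mul_sum]
    have h1 : CJ / (ρ * Real.log A) * ∑ k ∈ Ico a (a * B ^ m), 1 / ((J k : ℝ) * l) *
        ∑ p ∈ P k, (Real.log p - Real.log (Zm r g l Nb (J k) p)) ≤ CJ / (ρ * Real.log A) * R :=
      mul_le_mul_of_nonneg_left hsum (by positivity)
    refine h1.trans ?_
    rw [div_mul_eq_mul_div, div_le_iff₀ (by positivity)]
    linarith
  obtain ⟨i, hi, hsel⟩ := exists_sub _ hB1 hm htot
  refine ⟨i, hi, ?_⟩
  -- the subrange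
  have hBi : 1 ≤ B ^ i := Nat.one_le_pow _ _ (by omega)
  have hsub : ∀ k ∈ Ico (a * B ^ i) (B * (a * B ^ i)), k ∈ Ico a (a * B ^ m) := by
    intro k hk
    rw [mem_Ico] at hk ⊢
    refine ⟨(Nat.le_mul_of_pos_right _ (by omega)).trans hk.1, hk.2.trans_le ?_⟩
    calc B * (a * B ^ i) = a * B ^ (i + 1) := by ring
      _ ≤ a * B ^ m := Nat.mul_le_mul_left _ (Nat.pow_le_pow_right hB1 hi)
  have hABk : ∀ k ∈ Ico a (a * B ^ m), ∀ p ∈ P k, 2 * (D * l) ^ 2 < p := by
    intro k hk p hp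
    refine hD.trans_le ?_
    exact (Nat.pow_le_pow_right (by omega) (mem_Ico.1 hk).1).trans (hrng k hk p hp).1.le
  refine
    { l_pos := hl
      l_le := ?_
      long := ?_
      rts := fun k hk => hrts k (hsub k hk)
      rng := fun k hk => hrng k (hsub k hk)
      many := fun k hk => hmany k (hsub k hk)
      nonneg := ?_
      one := ?_
      beta := ?_
      sup := ?_
      avbeta := hsel
      avrel := ?_ }
  · exact hl4.trans (Nat.pow_le_pow_left (Nat.le_mul_of_pos_right _ (by omega)) 4)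
  · refine le_trans ?_ hlong
    refine Nat.pow_le_pow_right (by omega) ?_
    calc 3 * B * (a * B ^ i) = 3 * (a * B ^ (i + 1)) := by ring
      _ ≤ 3 * (a * B ^ m) :=
        Nat.mul_le_mul_left _ (Nat.mul_le_mul_left _ (Nat.pow_le_pow_right hB1 hi))
  · intro k hk p hp c
    rw [hq k (hsub k hk) p hp]
    exact gq_nonneg (by have := hp1 k (hsub k hk) p hp; omega) c
  · intro k hk p hp
    rw [hq k (hsub k hk) p hp]
    exact sum_gq (by have := hp1 k (hsub k hk) p hp; omega)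
  · intro k hk p hp
    have h1 := hp1 k (hsub k hk) p hp
    rw [hb k (hsub k hk) p hp]
    exact ⟨gb_nonneg h1, gb_le_one h1 (one_le_Zm (by omega) (hmiss k (hsub k hk) p hp))⟩
  · intro k hk p hp c
    rw [hq k (hsub k hk) p hp, hb k (hsub k hk) p hp]
    exact sup_gq (hp1 k (hsub k hk) p hp) c
  · rw [Finset.sum_comm]
    have h1 : ∀ k ∈ Ico (a * B ^ i) (B * (a * B ^ i)),
        ∑ j ∈ range Nb, 1 / (k : ℝ) * av (P k) (fun p => rel r (qg r g l Nb A J) g l p j) ≤
          Nb * (1 / (k : ℝ) * av (P k) (bg r g l Nb A J)) := by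
      intro k hk
      have hk' := hsub k hk
      have hk1 := hk0 k hk'
      have hc := hcard k hk'
      have h2 : ∀ p ∈ P k, ∑ j ∈ range Nb, rel r (qg r g l Nb A J) g l p j ≤
          Nb * bg r g l Nb A J p := by
        intro p hp
        have h3 := hp1 k hk' p hp
        have h4 := hrng k hk' p hp
        rw [hb k hk' p hp]
        refine rel_sum_le h3 hNb0 (hJ k hk') hl ?_ _ (hq k hk' p hp) ?_
        · refine le_trans ?_ (hJ1 k hk')
          have h5 : (p : ℝ) ≤ (A : ℝ) ^ (k + 1) := by exact_mod_cast h4.2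
          have h6 : Real.log p ≤ (k + 1) * Real.log A := by
            have h7 : Real.log p ≤ Real.log ((A : ℝ) ^ (k + 1)) :=
              Real.log_le_log (by exact_mod_cast (by omega : 0 < p)) h5
            rw [Real.log_pow] at h7
            push_cast at h7
            exact h7
          exact mul_le_mul h5 h6 (Real.log_nonneg (by exact_mod_cast h3.le)) (by positivity)
        · intro j _
          exact block_inj hg (hrts k hk' p hp).2 (hABk k hk' p hp) (j * l)
      rw [← Finset.mul_sum]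
      simp only [av]
      rw [← Finset.sum_div, Finset.sum_comm]
      calc 1 / (k : ℝ) * ((∑ p ∈ P k, ∑ j ∈ range Nb, rel r (qg r g l Nb A J) g l p j) / (P k).card)
          ≤ 1 / (k : ℝ) * ((∑ p ∈ P k, Nb * bg r g l Nb A J p) / (P k).card) := by
            refine mul_le_mul_of_nonneg_left ?_ (by positivity)
            exact div_le_div_of_nonneg_right (Finset.sum_le_sum h2) hc.le
        _ = Nb * (1 / (k : ℝ) * ((∑ p ∈ P k, bg r g l Nb A J p) / (P k).card)) := by
            rw [← Finset.mul_sum]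
            ring
    refine (Finset.sum_le_sum h1).trans ?_
    rw [← Finset.mul_sum, mul_comm ε]
    exact mul_le_mul_of_nonneg_left hsel (by positivity)

end Vale.Agent.P015.H723
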